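import Vale.Agent.P022K.QT.Wq
import Vale.Agent.P022K.QT.ClU

/-!
# P004M: the cusp functional on functions of the modular tower
-/

set_option autoImplicit false
set_option linter.all false

noncomputable section

namespace Vale.Agent.P004M.Mo

open Vale.Agent.P022 Vale.Agent.P022K Vale.Agent.P022K.QT Vale.Agent.P022K.Sh
open Vale.Agent.P022K.WB hiding th dl
open Vale.Agent.P022.H218.L3 Sh.Tw
open Vale.Agent.P027M.M (Mdl FS FF cv mkF cv_inj M2)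

variable {p : Pr} {X : Mdl} {C : Type} [NontriviallyNormedField C] [IsUltrametricDist C]
  [CharZero C] {e : Qb →+* C} {ψ : ℚ_[p] → C} {lg : FF → ℤ → C} {U : Subgroup G} {φ : G → Mer}

/-! ## tame diagonal units -/

theorem dU_UU (N : ℕ) [NeZero N] (c : ∀ l : Pr, ℤ_[l]ˣ) : dU c ∈ Cl.UU N 1 := by
  have h1 := KN_le 1 (mem_K1.2 fun l => dO_mem (c l) : dU c ∈ KN 1)
  refine Cl.mem_UU.2 ⟨h1, ?_⟩
  rwa [mul_assoc, show _ * TQ.j (Cl.dN N) = TQ.j (Cl.dN N) * dU c from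
    G_ext fun l => Units.ext ?_, inv_mul_cancel_left]
  change (dO ℚ_[l] (c l)).val * (jl l (Cl.dN N).1).val =
    (jl l (Cl.dN N).1).val * (dO ℚ_[l] (c l)).val
  rw [Cl.dN, Cl.jl_tq]
  simp [dO, dg_val]

theorem Dp_mem (p : Pr) (N : ℕ) [NeZero N] : Dp p ∈ Cl.UU N 1 ⊓ (QT.ev p).ker :=
  ⟨dU_UU N _, ev_Dp p⟩

theorem dl_io (p : Pr) (s : GQ) :
    dl s * io p (dO ℚ_[p] (chi p s)) = dU fun l => if l = p then 1 else (chi l s)⁻¹ :=
  G_ext fun l => by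
    rw [map_mul, dl, ev_dU, ev_dU]
    by_cases h : l = p
    · subst h
      rw [ev_io, ← dO_mul, inv_mul_cancel, if_pos rfl]
    · rw [ev_io_ne h, mul_one, if_neg h]

theorem dl_mem (p : Pr) (N : ℕ) [NeZero N] (s : GQ) :
    dl s * io p (dO ℚ_[p] (chi p s)) ∈ Cl.UU N 1 ⊓ (QT.ev p).ker := by
  rw [dl_io]
  exact ⟨dU_UU N _, show QT.ev p _ = 1 by rw [ev_dU, if_pos rfl, dO_one]⟩

/-! ## the functional -/

theorem la_rt (f : FV φ) (x : G) : La lg (rt x φ) = lg (mkF _ (f x)) :=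
  La_eq (congrArg φ (one_mul x).symm)

theorem la_one (f : FV φ) : La lg φ = lg (mkF _ (f 1)) := La_eq rfl

variable (L : Lq X p e ψ lg) (hU : U ∈ TQ.Lev) (h : φ ∈ TQ.RU U) (f : FV φ) (h0 : ∀ x, φ x ≠ 0)

include L h0 f

theorem la_mem : La lg φ ∈ BW p C := by
  rw [la_one f]
  exact L.mem _ (ne_of_cv rfl (h0 1))

theorem la_mul {φ' : G → Mer} (f' : FV φ') (h0' : ∀ x, φ' x ≠ 0) :
    La lg (φ * φ') = La lg φ + La lg φ' := by
  rw [La_eq (f := mkF _ (f 1) * mkF _ (f' 1)) (map_mul cv _ _), la_one f, la_one f',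
    L.mul _ _ (ne_of_cv rfl (h0 1)) (ne_of_cv rfl (h0' 1))]

theorem la_pow (n : ℕ) : La lg (φ ^ (n + 1)) = (n + 1) • La lg φ := by
  induction n with
  | zero => simp
  | succ n ih =>
    rw [pow_succ, la_mul L (f.pow _) (fun x => pow_ne_zero _ (h0 x)) f h0, ih, ← succ_nsmul]

theorem cl_up (k k' : ℕ) : cl p (k + k') (La lg (φ ^ (p : ℕ) ^ k')) = cl p k (La lg φ) := by
  obtain ⟨n, hn⟩ := Nat.exists_eq_succ_of_ne_zero (pow_pos p.2.pos k').ne'
  have hp : ((p : ℕ) : C) ^ k' ≠ 0 := pow_ne_zero _ (Nat.cast_ne_zero.2 p.2.ne_zero)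
  rw [hn, la_pow L f h0, ← Nat.succ_eq_add_one, ← hn, ← Nat.cast_smul_eq_nsmul C, Nat.cast_pow,
    cl, cl, pow_add, mul_inv, mul_smul, inv_smul_smul₀ hp]

theorem cl_pow (k : ℕ) : cl p k (La lg (φ ^ (p : ℕ) ^ k)) = 0 := by
  have := cl_up L f h0 0 k
  rw [zero_add] at this
  rw [this, cl_eq_zero]
  exact ⟨_, la_mem L f h0, by simp⟩

/-- **(s)** the Galois law -/
theorem la_s (σ : Iso C) (s : GQ) (hs : ∀ x, e (s x) = σ.1 (e x)) (k : ℕ) :
    cl p k (La lg (th X s φ)) = Y.gal σ (cl p k (La lg (rt (dl s) φ))) := by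
  rw [La_eq (f := X.gal s (mkF _ (f (dl s)))) (th_val f (by rw [mul_one]; rfl)).symm, la_rt f,
    cl, cl, Y.gal_mk]
  congr 1
  funext i
  rw [Pi.smul_apply, Pi.smul_apply, L.gal σ _ _ (ne_of_cv rfl (h0 _)) hs, smul_eq_mul,
    smul_eq_mul, map_mul, map_inv₀, map_pow, map_natCast]

include h

/-- **(t)** the law for `diag (p, 1)` -/
theorem la_t (k : ℕ) :
    cl p k (La lg (rt (TQ.j (Jp p)) φ)) = Y.phi p C (cl p k (La lg φ)) := by
  have e1 : φ (TQ.j (Jp p)) = TQ.act (Jp p) (φ 1) := by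
    rw [← RU_val h _ 1 (one_mem U), mul_one, mul_one]
  have e2 : mkF _ (f 1) = X.pb _ (det_tp p) (mkF _ (f (TQ.j (Jp p)))) := cv_inj (by
    rw [X.pb_coe, ← act_gz, ← Jp]
    show φ 1 = TQ.act _ (φ _)
    rw [e1, ← act_mul, inv_mul_cancel, act_one])
  rw [la_rt f, la_one f, e2, cl, cl, Y.phi_mk]
  congr 1
  funext j
  rw [Pi.smul_apply, Pi.smul_apply, L.t _ j (ne_of_cv rfl (h0 _))]

include hU

/-- **(n)** the law for unipotent elements -/
theorem la_n (b : ℚ_[p]) (k : ℕ) :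
    cl p k (La lg (rt (io p (nn b)) φ)) = L.psi.n b (cl p k (La lg φ)) := by
  obtain ⟨n, z, -, hz⟩ := L.mem _ (ne_of_cv (f := mkF _ (f 1)) rfl (h0 1))
  obtain ⟨m, r, h3, h4⟩ := ex_nq p b hU n
  have e0 : φ (io p (nn b)) = TQ.act (nq (m / (p : ℕ) ^ r)) (φ 1) := by
    rw [← RU_val h _ 1 h4, mul_one, mul_inv_cancel_left]
  have e1 : cl p k (La lg (rt (io p (nn b)) φ)) = L.psi.n (m / (p : ℕ) ^ r) (cl p k (La lg φ)) := by
    rw [la_rt f, la_one f, cl, cl, Psi.n_mk]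
    congr 1
    funext i
    rw [Pi.smul_apply, Pi.smul_apply, L.n m r (mkF _ (f 1)) _ (ne_of_cv rfl (h0 1)) e0,
      smul_eq_mul, smul_eq_mul, mul_left_comm]
  have e2 : L.psi.n (b - m / (p : ℕ) ^ r) (cl p k (La lg φ)) = cl p k (La lg φ) := by
    rw [la_one f, cl, Psi.n_mk]
    congr 1
    funext i
    rcases lt_or_ge (i + n) 0 with h | h
    · rw [Pi.smul_apply, hz, lev_neg _ _ _ h, smul_zero, mul_zero]
    · rw [(L.psi.ker _).2, one_mul]
      obtain ⟨t, ht⟩ := Int.eq_ofNat_of_zero_le h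
      refine (nmul h3 le_rfl).trans ?_
      rw [← norm_mul, ← zpow_natCast, ← zpow_add₀ (p_ne p), add_comm, ht, zpow_natCast, norm_pow_p]
      exact rad_le_one t
  rw [e1]
  conv_lhs => rw [← e2, ← Psi.n_add, add_sub_cancel]

end Vale.Agent.P004M.Mo
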