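import Vale.Agent.P004M.Mo.Wh
import Vale.Agent.P022K.QT.Galq

/-!
# P004M: the Galois action on the Kummer functions of all cocycles modulo `p ^ k`
-/

set_option autoImplicit false
set_option linter.all false

open scoped MatrixGroups NumberField

noncomputable section

namespace Vale.Agent.P004M.Mo

open Vale.Agent.P022 Vale.Agent.P022K Vale.Agent.P022K.QT Vale.Agent.P022K.Sh
open Vale.Agent.P022K.WB hiding th dl
open Vale.Agent.P022.H218.L3 Sh.Tw Vale.Agent.P019P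
open Vale.Agent.P027M.M (Mdl FS FF L cv mkF cv_inj cv_mem Lv Mid)
open Vale.Agent.P022.H443 (inP)
open Vale.Agent.P022E.GW (Ov Fb)

variable {p : Pr} {X : Mdl} {U U' : Subgroup G} {n k : ℕ} {z z' : G0 → G → ZMod n}
  {φ φ' φ'' ψ ψ' : G → Mer}

/-- constant coefficients -/
abbrev tz (n : ℕ) : Representation (ZMod n) G0 (ZMod n) :=
  Representation.trivial (ZMod n) G0 (ZMod n)

theorem Z1_le {Λ B : Type} [CommRing Λ] [AddCommGroup B] [Module Λ B]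
    {ρ : Representation Λ G0 B} {z : G0 → G → B} (hz : z ∈ TQ.Z1 ρ U) (le : U' ≤ U) :
    z ∈ TQ.Z1 ρ U' := ⟨fun γ x u hu => hz.1 γ x u (le hu), hz.2⟩

theorem par_le {B : Type} [Zero B] {z : G0 → G → B} (h : Par U z) (le : U' ≤ U) : Par U' z :=
  fun x γ hγ => h x γ (TQ.mem_Gam.2 (le (TQ.mem_Gam.1 hγ)))

/-! ## every cocycle becomes parabolic -/

theorem nn_U1 {m : ℕ} {t : ℚ_[p]} (h : (nn t : Gl p) ∈ U1 p m) : ‖t‖ ≤ (p : ℝ) ^ (-m : ℤ) := by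
  obtain ⟨k, hk, z, hz, e⟩ := Subgroup.mem_sup_of_normal_right.1 h
  obtain ⟨c, rfl⟩ := scalar_of_mem hz
  obtain ⟨h1, h2⟩ := mem_Km.1 hk
  have e1 : k.val.det * (c : ℚ_[p]) ^ 2 = 1 := by
    have := congrArg (fun A : Gl p => A.val.det) e
    simpa [nn, Matrix.det_fin_two, sq] using this
  have e2 : k.val 0 1 * c = t := by
    have := congrArg (fun A : Gl p => A.val 0 1) e
    simpa [nn, Matrix.mul_apply, Fin.sum_univ_two] using this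
  have e3 := congrArg norm e1
  rw [norm_mul, norm_det h1, one_mul, norm_pow, norm_one,
    pow_eq_one_iff_of_nonneg (norm_nonneg _) two_ne_zero] at e3
  rw [← e2, norm_mul, e3, mul_one]
  simpa using h2 0 1

theorem par_deep (p : Pr) (hU : U ∈ TQ.Lev) (k : ℕ) : ∃ m : ℕ, ∀ z ∈ TQ.Z1 (tz (p.1 ^ k)) U,
    ∀ U' ∈ TQ.Lev, U' ≤ U → U' ≤ UN (p.1 ^ m) → Par U' z := by
  obtain ⟨⟨M, hM, le⟩, -⟩ := hU
  refine ⟨M.factorization p + k + 1, fun z hz U' hU' h1 h2 x γ hγ hb =>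
    bd_red hU' 1 (Z1_le hz h1) (zero_mem _) (fun t x hx ht => ?_) hγ hb⟩
  rw [mul_one] at hx
  have e1 := mem_PU.1 ((conj_UN (KN_le 1 hx) (pow_pos p.2.pos _)).le
    (mem_cj.2 (h2 (TQ.mem_Gam.1 ht)))) p
  rw [jl_nq, p.2.factorization_pow, Finsupp.single_eq_same] at e1
  obtain ⟨a, ha⟩ := (Padic.norm_int_le_pow_iff_dvd (p := p) t.num _).1 (by
    rw [show (t.num : ℚ_[p]) = t * t.den by exact_mod_cast (Rat.mul_den_eq_num t).symm, norm_mul]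
    exact (mul_le_of_le_one_right (norm_nonneg _) (norm_nat _)).trans (nn_U1 e1))
  have e4 : nq (M * (p.1 * a : ℤ)) ∈ TQ.Gam U x :=
    TQ.mem_Gam.2 (le (KN_le M (conj_KN hx hM (mem_PU.2 fun l => by
      rw [jl_nq]
      refine nn_Km ?_
      obtain ⟨c, hc⟩ := Nat.ordProj_dvd M l
      conv_lhs => rw [hc, Rat.cast_mul, Rat.cast_natCast, Rat.cast_intCast, Nat.cast_mul,
        Nat.cast_pow, mul_assoc, norm_mul, norm_mul]
      exact mul_le_of_le_one_right (norm_nonneg _)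
        (mul_le_one₀ (norm_nat c) (norm_nonneg _) (Padic.norm_int_le_one _))))))
  have e5 : nq t ^ (ordCompl[p.1] M * t.den) = nq (M * (p.1 * a : ℤ)) ^ p.1 ^ k := by
    rw [nq_pow, nq_pow, Nat.cast_mul, mul_assoc, Rat.den_mul_eq_num, ha]
    conv_rhs => rw [← Nat.ordProj_mul_ordCompl_eq_self M p]
    congr 1
    push_cast
    ring
  have e6 := coc_pow hz (TQ.mem_Gam.2 (h1 (TQ.mem_Gam.1 ht))) (ordCompl[p.1] M * t.den)
  rw [e5, coc_pow hz e4, nsmul_eq_mul, ZMod.natCast_self, zero_mul, nsmul_eq_mul] at e6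
  refine (IsUnit.mul_right_eq_zero ((ZMod.isUnit_iff_coprime _ _).2 (Nat.Coprime.pow_right _
    ((Nat.coprime_ordCompl p.2 hM.ne').symm.mul_left ?_)))).1 e6.symm
  refine (t.reduced.coprime_dvd_left (Int.natCast_dvd.1 ?_)).symm
  rw [ha, pow_succ']
  exact (dvd_mul_right _ _).mul_right _

/-! ## Kummer functions up to powers -/

variable (n) in
/-- equality up to the `n`-th power of an algebraic function -/
def Eqv (φ φ' : G → Mer) : Prop :=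
  ∃ U ∈ TQ.Lev, ∃ ψ ∈ TQ.RU U, FV ψ ∧ (∀ x, ψ x ≠ 0) ∧ φ = φ' * ψ ^ n

theorem Eqv.refl (φ : G → Mer) : Eqv n φ φ :=
  ⟨_, UN_mem one_pos, 1, one_mem _, fv_one, fun _ => one_ne_zero, by simp⟩

theorem RU_inv (h : ψ ∈ TQ.RU U) : ψ⁻¹ ∈ TQ.RU U :=
  ⟨fun γ x => by rw [Pi.inv_apply, Pi.inv_apply, h.1, map_inv₀],
    fun x u hu => by rw [Pi.inv_apply, Pi.inv_apply, h.2 x u hu]⟩

theorem Eqv.symm (h : Eqv n φ φ') : Eqv n φ' φ := by
  obtain ⟨U, hU, ψ, h1, h2, h3, rfl⟩ := h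
  refine ⟨U, hU, _, RU_inv h1, h2.inv, fun x => inv_ne_zero (h3 x), funext fun x => ?_⟩
  simp [pow_ne_zero n (h3 x)]

theorem Eqv.mul (h : Eqv n φ φ') (h' : Eqv n ψ ψ') : Eqv n (φ * ψ) (φ' * ψ') := by
  obtain ⟨U, hU, a, h1, h2, h3, rfl⟩ := h
  obtain ⟨U', hU', b, k1, k2, k3, rfl⟩ := h'
  exact ⟨_, ok_inf U hU U' hU', a * b,
    mul_mem (RU_mono inf_le_left h1) (RU_mono inf_le_right k1), h2.mul k2,
    fun x => mul_ne_zero (h3 x) (k3 x), by rw [mul_pow, mul_mul_mul_comm]⟩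

theorem Eqv.trans (h : Eqv n φ φ') (h' : Eqv n φ' φ'') : Eqv n φ φ'' := by
  obtain ⟨U, hU, a, h1, h2, h3, rfl⟩ := h
  have e : Eqv n (a ^ n) 1 := ⟨U, hU, a, h1, h2, h3, (one_mul _).symm⟩
  exact mul_one φ'' ▸ h'.mul e

theorem Eqv.pow (h : Eqv n φ φ') (m : ℕ) : Eqv n (φ ^ m) (φ' ^ m) := by
  induction m with
  | zero => simpa using Eqv.refl 1
  | succ m ih => rw [pow_succ, pow_succ]; exact ih.mul h

theorem Eqv.rt (h : Eqv n φ φ') (x : G) : Eqv n (rt x φ) (rt x φ') := by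
  obtain ⟨U, hU, a, h1, h2, h3, rfl⟩ := h
  exact ⟨_, ok_conj U hU x, _, RU_rt h1 x, h2.rt x, fun _ => h3 _, rfl⟩

theorem Eqv.th (h : Eqv n φ φ') (f : FV φ') (s : GQ) : Eqv n (th X s φ) (th X s φ') := by
  obtain ⟨U, hU, a, h1, h2, h3, rfl⟩ := h
  exact ⟨U, hU, _, ((thm0 X U hU).1 s a h1 h2).1, th_fv, th_ne h2 h3,
    by rw [th_mul f (h2.pow n), th_pow h2]⟩

theorem Eqv.cl {C : Type} [NontriviallyNormedField C] [IsUltrametricDist C] [CharZero C]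
    {e : Qb →+* C} {χ : ℚ_[p] → C} {lg : FF → ℤ → C} (L : Lq X p e χ lg)
    (h : Eqv (p.1 ^ k) φ φ') (f : FV φ') (h0 : ∀ x, φ' x ≠ 0) :
    cl p k (La lg φ) = cl p k (La lg φ') := by
  obtain ⟨U, hU, a, h1, h2, h3, rfl⟩ := h
  have := cl_pow L h2 h3 k
  rw [la_mul L f h0 (h2.pow _) fun x => pow_ne_zero _ (h3 x)]
  rw [WB.cl] at this
  rw [WB.cl, smul_add, map_add, this, add_zero, WB.cl]

theorem eqv_of (X : Mdl) (hn : 0 < n) (hU : U ∈ TQ.Lev) (h : ψ ∈ TQ.RU U) (f : FV φ)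
    (f' : FV φ') (h0 : ∀ x, φ x ≠ 0) (e : φ = φ' * ψ ^ n) : Eqv n φ φ' := by
  have h1 : ∀ x, φ' x ≠ 0 ∧ ψ x ^ n ≠ 0 := fun x => mul_ne_zero_iff.1 (by
    have := h0 x
    rwa [e] at this)
  refine ⟨U, hU, ψ, h, (thm0 X U hU).2 n hn ψ h fun x => ?_,
    fun x => ne_zero_pow hn.ne' (h1 x).2, e⟩
  have := mul_mem (f'.inv x) (f x)
  rwa [e, Pi.inv_apply, Pi.mul_apply, inv_mul_cancel_left₀ (h1 x).1] at this

theorem kf_eqv (X : Mdl) (hn : 0 < n) (hU : U ∈ TQ.Lev) {a : TQ.Hn n U} (k : TQ.Kf n U a φ)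
    (k' : TQ.Kf n U a φ') (f : FV φ) (f' : FV φ') : Eqv n φ φ' := by
  obtain ⟨ψ, h, e⟩ := (k.eq_iff hn k').1 rfl
  exact eqv_of X hn hU h f f' k.ne e

variable (n) in
/-- `φ` is an algebraic Kummer function of the cocycle `z`, at some level -/
def Kr (z : G0 → G → ZMod n) (φ : G → Mer) : Prop :=
  ∃ U ∈ TQ.Lev, ∃ h, TQ.Kum n U h z ∧ h ^ n = φ ∧ FV φ

theorem Kr.fv (h : Kr n z φ) : FV φ := by
  obtain ⟨-, -, -, -, -, h⟩ := h
  exact h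

theorem Kr.ne (h : Kr n z φ) (x : G) : φ x ≠ 0 := by
  obtain ⟨U, -, h, k, rfl, -⟩ := h
  exact k.pow_ne x

theorem Kr.rt (h : Kr n z φ) (x : G) : Kr n (fun γ => rt x (z γ)) (rt x φ) := by
  obtain ⟨U, hU, h, k, rfl, f⟩ := h
  exact ⟨_, ok_conj U hU x, _, k.rt x, rfl, f.rt x⟩

section

variable (hn : 0 < n)

include hn

theorem Kr.mem (h : Kr n z φ) : ∃ U ∈ TQ.Lev, φ ∈ TQ.RU U := by
  obtain ⟨U, hU, h, k, rfl, -⟩ := h
  exact ⟨U, hU, k.pow_mem hn⟩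

theorem Kr.add (h : Kr n z φ) (h' : Kr n z' φ') : Kr n (z + z') (φ * φ') := by
  obtain ⟨U, hU, h, k, rfl, f⟩ := h
  obtain ⟨U', hU', h', k', rfl, f'⟩ := h'
  exact ⟨_, ok_inf U hU U' hU', _, (k.mono inf_le_left).mul hn (k'.mono inf_le_right),
    mul_pow _ _ _, f.mul f'⟩

theorem kr_zero : Kr n 0 1 :=
  ⟨_, UN_mem one_pos, 1, kum_RU (one_mem _) fun _ => one_ne_zero, one_pow _, fv_one⟩

theorem Kr.sum {I : Type} (s : Finset I) {z : I → G0 → G → ZMod n} {φ : I → G → Mer}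
    (h : ∀ i ∈ s, Kr n (z i) (φ i)) : Kr n (∑ i ∈ s, z i) (∏ i ∈ s, φ i) := by
  classical
  induction s using Finset.induction_on with
  | empty => exact kr_zero hn
  | insert i s hi ih =>
    rw [Finset.sum_insert hi, Finset.prod_insert hi]
    exact (h i (Finset.mem_insert_self _ _)).add hn
      (ih fun j hj => h j (Finset.mem_insert_of_mem hj))

theorem Kr.hp {Q : Set G} (c : Cor U' Q U) (h : Kr n z φ) :
    Kr n (fun γ => hk Q U (z γ)) (hp Q U φ) := by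
  rw [hp_eq c, show (fun γ => hk Q U (z γ)) = ∑ a ∈ c.fin.toFinset, fun γ => Sh.rt a.out (z γ) from
    funext₂ fun γ x => by
      rw [hk_eq c, Finset.sum_apply, Finset.sum_apply]
      rfl]
  exact Kr.sum hn _ fun _ _ => h.rt _

theorem Kr.of_kf (hU : U ∈ TQ.Lev) {w : TQ.Z1 (tz n) U}
    (k : TQ.Kf n U (Submodule.Quotient.mk w) φ) (f : FV φ) : Kr n w.1 φ := by
  obtain ⟨h, k, e⟩ := k.of_mk hn
  exact ⟨U, hU, h, k, e, f⟩

theorem Kr.cob (X : Mdl) (h : Kr n z φ) (h' : Kr n z' φ') (hU : U ∈ TQ.Lev)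
    (e : z - z' ∈ TQ.B1 (tz n) U) : Eqv n φ φ' := by
  obtain ⟨V, hV, h, k, rfl, f⟩ := h
  obtain ⟨V', hV', h', k', rfl, f'⟩ := h'
  obtain ⟨b, h1, h2⟩ := e
  obtain ⟨ψ, h3, e⟩ := ((k.mono (U' := U ⊓ (V ⊓ V')) (inf_le_right.trans inf_le_left)).cob hn
    (k'.mono (inf_le_right.trans inf_le_right))).1 ⟨b, fun x u hu => h1 x u hu.1, h2⟩
  exact eqv_of X hn (ok_inf _ hU _ (ok_inf _ hV _ hV')) h3 f f' k.pow_ne e

theorem Kr.eqv (X : Mdl) (h : Kr n z φ) (h' : Kr n z φ') : Eqv n φ φ' :=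
  h.cob hn X h' (UN_mem one_pos) (by rw [sub_self]; exact zero_mem _)

/-- invariance under the level of the cocycle -/
theorem Kr.inv (X : Mdl) (h : Kr n z φ) {u : G} (e : ∀ γ x, z γ (x * u) = z γ x) :
    Eqv n (Sh.rt u φ) φ :=
  (h.rt u).eqv hn X (by rwa [show (fun γ => Sh.rt u (z γ)) = z from funext₂ e])

/-! ## existence -/

theorem kum_par (X : Mdl) {N : ℕ} [NeZero N] (h4 : 4 ∣ N) (hU : U ∈ TQ.Lev) (le : U ≤ Cl.UU N 1)
    (hz : z ∈ TQ.Z1 (tz n) U) (pz : Par U z) : ∃ h, TQ.Kum n U h z ∧ FV (h ^ n) := by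
  classical
  obtain ⟨h, k1, h1⟩ := ex_kum_loc hn hz (P := fun _ r => r ^ n ∈ FS) fun x => by
    obtain ⟨δ, hδ⟩ := Cl.gen_UU (N := N) x
    refine ⟨_, rel_left δ x, ?_⟩
    generalize (TQ.j δ)⁻¹ * x = y at hδ
    have gex : ∀ γ ∈ TQ.Gam U y, _ := fun γ hγ => Cl.stab_UU (N := N) (γ := γ) (by
      simpa [mul_assoc] using mul_mem (mul_mem hδ (le (TQ.mem_Gam.1 hγ))) (inv_mem hδ))
    obtain ⟨E, hE, lo⟩ := ex_lv hU y
    have m : Mid E ((TQ.Gam U y).comap iZ) := ⟨hE, fun g hg => lo (gt_UN hE.pos hg), fun g hg => by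
      obtain ⟨g', h1, ζ, h2, h3⟩ := gex _ hg
      rw [← inv_mul_eq_iff_eq_mul, ← map_inv, ← map_mul] at h3
      obtain ⟨c, hc⟩ := scalar_of_mem (QT.mem_Z0.1 (h3 ▸ h2))
      have h5 : (((g'⁻¹ * g) 1 0 : ℤ) : ℚ) = 0 := by
        rw [← iZ_apply, hc]
        simp
      rw [← mul_inv_cancel_left g' g]
      refine mul_mem (CongruenceSubgroup.Gamma0_mem.2 ?_) (CongruenceSubgroup.Gamma0_mem.2 ?_)
      · exact (ZMod.intCast_zmod_eq_zero_iff_dvd _ _).2 ((Int.natCast_dvd_natCast.2 h4).trans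
          ((ZMod.intCast_zmod_eq_zero_iff_dvd _ _).1 (CongruenceSubgroup.Gamma0_mem.1 h1)))
      · rw [Int.cast_eq_zero.1 h5, Int.cast_zero]⟩
    have hX := P027M.J.j_min X
    have := (hX.grp E hE).1
    have := hX.cffs _ m.hi (Subgroup.finiteIndex_of_le m.lo)
    obtain ⟨κ, k⟩ := P027M.Th.kap0 E _ m _ hn
    obtain ⟨r, h1, ⟨_, h2⟩, h3⟩ := ex_cm k
      (c := fun g => if g ∈ (TQ.Gam U y).comap iZ then z (iZ g⁻¹) y else 0)
      ⟨fun g hg g' hg' => by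
        rw [if_pos hg, if_pos hg', if_pos (mul_mem hg hg'), mul_inv_rev, map_mul,
          coc_mul hz (Subgroup.mem_comap.1 (inv_mem hg')), add_comm],
      fun g t hg => by
        rw [if_pos hg]
        refine pz _ _ (Subgroup.mem_comap.1 (inv_mem hg)) ?_
        have := (pb_nq (-t)).conj (iZ g⁻¹)
        refine (congrArg Pb ?_).mp this
        rw [P027M.Th.pT, mul_inv_rev, mul_inv_rev, inv_inv, map_mul, map_mul, ← map_inv iZ, inv_inv,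
          mul_assoc, ← zpow_neg]
        congr 2
        refine Subtype.ext (Units.ext ?_)
        ext i j
        rw [iZ_apply, ModularGroup.coe_T_zpow]
        fin_cases i <;> fin_cases j <;> simp [nq, Tq.eU],
      by rw [(Tw.mem_Z1.1 hz).2.2 _ (map_inv iZ _ ▸ inv_mem neg_Z0), ite_self],
      fun g hg => if_neg hg⟩
    refine ⟨r, h1, h2.fs, fun γ hγ => ?_⟩
    obtain ⟨g, -, ζ, hζ, rfl⟩ := gex γ hγ
    have hg : g ∈ (TQ.Gam U y).comap iZ :=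
      (Subgroup.mul_mem_cancel_right _ (z0_le hU _ hζ)).1 hγ
    have := h3 _ (inv_mem hg)
    rw [if_pos (inv_mem hg), inv_inv] at this
    rw [act_mul, act_Z0 hζ, act_iZ, coc_z0 hz _ hζ, this]
  exact ⟨h, k1, fv_loc X (k1.pow_mem hn) h1⟩

theorem kf_par (X : Mdl) {E : ℕ} [NeZero E] (hL : Lv E) {η : G} {a : TQ.Hn n (UE E η)}
    (ha : ParC n (UE E η) a) : ∃ φ, TQ.Kf n (UE E η) a φ ∧ FV φ := by
  obtain ⟨_, A, κ, k⟩ := ex_dat X hL hn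
  obtain ⟨c, φ, k1, h⟩ := ex_kc hn k A ha
  exact ⟨φ, k1, fv_pt X (k1.mem hn) fun e => (h e).fs⟩

section

variable (X : Mdl) (hU : U ∈ TQ.Lev) (hz : z ∈ TQ.Z1 (tz n) U) (pz : Par U z)

include hU hz pz

omit hn hU in
theorem parC (le : U' ≤ U) : ParC n U' (Submodule.Quotient.mk ⟨z, Z1_le hz le⟩) :=
  ⟨_, rfl, par_le pz le⟩

theorem par_ex : ∃ φ, Kr n z φ := by
  obtain ⟨X⟩ := P027M.M.mdl
  obtain ⟨E, η, h0, h4, le⟩ := lv_any hU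
  have : NeZero E := ⟨h0.ne'⟩
  obtain ⟨φ, k, f⟩ := kf_par hn X ⟨h0, h4⟩ (parC hz pz le)
  have r := Kr.of_kf hn UE_mem k f
  exact ⟨φ, r⟩

theorem par_rt (h : Kr n z φ) (s : GQ) (x : G) : ∃ y, y ≠ 0 ∧ y ^ n = th X s φ x := by
  obtain ⟨E, η, h0, h4, le⟩ := lv_any hU
  have : NeZero E := ⟨h0.ne'⟩
  have pa := parC hz pz le
  obtain ⟨a', g⟩ := ga_ex (thm0 X) ⟨h0, h4⟩ hn pa s
  obtain ⟨φ', f, k, w, r, -, k', e⟩ := (ga_iff hn).1 g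
  have r' := Kr.of_kf hn UE_mem k f
  obtain ⟨V, -, ψ, -, -, h1, h2⟩ := (h.eqv hn X r').th (X := X) f s
  exact ⟨r x * ψ x, mul_ne_zero (k'.1 x) (h1 x), by rw [h2, ← e, mul_pow]; rfl⟩

omit hU in
theorem par_fix {E : ℕ} [NeZero E] (hL : Lv E) {η : G} (le : UE E η ≤ U) (h : Kr n z φ) :
    ∃ V : Subgroup GQ, IsOpen (V : Set GQ) ∧ (∀ s ∈ V, Eqv n (th X s φ) φ) ∧
      ∀ l P, Ov l P → ¬ l ∣ E → ¬ l ∣ n → inP P ≤ V := by
  have pa := parC hz pz le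
  obtain ⟨V, h1, h2, h3⟩ := ga_fix (thm0 X) hL hn pa
  refine ⟨V, h1, fun s hs => ?_, h3⟩
  obtain ⟨φ', f, k, k'⟩ := (ga_iff hn).1 (h2 s hs)
  have r := Kr.of_kf hn UE_mem k f
  have e := h.eqv hn X r
  exact ((e.th f s).trans (kf_eqv X hn UE_mem k' k th_fv f)).trans e.symm

theorem par_es {l : Pr} (h2 : l.1 ≠ 2) (hl : ¬ l.1 ∣ n) (ha : (lc l).At (Kl l) U)
    {P : Ideal (𝓞 Qb)} (hP : Ov l P) {σ : GQ} (hσ : Fb l P σ) (h : Kr n z φ)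
    (h' : Kr n (fun γ => hk ((lc l).To U) U (z γ)) φ') :
    Eqv n (th X σ (th X σ φ) * φ ^ l.1) (th X σ φ') := by
  obtain ⟨E, η, h0, h4, hE, hη, le, h5⟩ := lv_K hU l h2 ha
  have : NeZero E := ⟨h0.ne'⟩
  have pa := parC hz pz le
  have c := Lc.L0.cor (w := lc l) ⟨UE_mem, h5⟩
  obtain ⟨a₁, a₂, g1, g2, e⟩ := ga_es (thm0 X) ⟨h0, h4⟩ hn pa ht hP hE hl hη hσ c
  obtain ⟨ψ, f, k, k1⟩ := (ga_iff hn).1 g1
  have k2 := Ga.kf (thm0 X) UE_mem hn g2 k1 th_fv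
  have r := Kr.of_kf hn UE_mem k f
  have e1 := h.eqv hn X r
  have := (lc l).fin
  have := Fintype.ofFinite (IsLocalRing.ResidueField ℤ_[l])
  have e2 := h'.eqv hn X (by
    rw [show (fun γ => hk ((lc l).To U) U (z γ)) =
      fun γ => hk ((lc l).To (UE E η)) (UE E η) (z γ) from funext fun γ =>
        (ha.hk_To hU (hz.1 γ)).trans (h5.hk_To UE_mem ((Z1_le hz le).1 γ)).symm]
    exact r.hp hn c)
  rw [sub_add_eq_add_sub, sub_eq_zero] at e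
  refine ((((e1.th f σ).th th_fv σ).mul (e1.pow _)).trans ?_).trans (e2.th (f.hp c) σ).symm
  rw [th_hp c f]
  exact kf_eqv X hn UE_mem (e ▸ k2.mul hn (k.pow hn l)) (k1.hp hn c) (th_fv.mul (f.pow _))
    (th_fv.hp c)

end

end

/-! ## all cocycles modulo `p ^ k` -/

section

variable (X : Mdl) {z : G0 → G → ZMod (p.1 ^ k)} (hU : U ∈ TQ.Lev)
  (hz : z ∈ TQ.Z1 (tz (p.1 ^ k)) U)

include hU hz

theorem ex_par : ∃ m : ℕ, U ⊓ UN (p.1 ^ m) ∈ TQ.Lev ∧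
    z ∈ TQ.Z1 (tz (p.1 ^ k)) (U ⊓ UN (p.1 ^ m)) ∧ Par (U ⊓ UN (p.1 ^ m)) z := by
  obtain ⟨m, h⟩ := par_deep p hU k
  have := ok_inf _ hU _ (UN_mem (pow_pos p.2.pos m))
  exact ⟨m, this, Z1_le hz inf_le_left, h z hz _ this inf_le_left inf_le_right⟩

/-- every cocycle has an algebraic Kummer function -/
theorem kr_ex : ∃ φ, Kr _ z φ := by
  obtain ⟨m, h1, h2, h3⟩ := ex_par hU hz
  exact par_ex (pow_pos p.2.pos k) h1 h2 h3

/-- the Galois conjugate is a Kummer function at the level of the function -/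
theorem kr_gal (h : Kr _ z φ) (hU' : U' ∈ TQ.Lev) (hφ : φ ∈ TQ.RU U') (s : GQ) :
    ∃ z' ∈ TQ.Z1 (tz (p.1 ^ k)) U', ∃ h', TQ.Kum _ U' h' z' ∧ h' ^ p.1 ^ k = th X s φ := by
  obtain ⟨m, h1, h2, h3⟩ := ex_par hU hz
  have hn := pow_pos p.2.pos k
  obtain ⟨h', z', k, e⟩ := ex_kum_rt hn ((thm0 X U' hU').1 s φ hφ h.fv).1 fun x =>
    ⟨x, Rel.refl x, par_rt hn X h1 h2 h3 h s x⟩
  exact ⟨z', k.mem0 okq hU' hn, h', k, e⟩

/-- **sm** -/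
theorem kr_sm (h : Kr _ z φ) :
    ∃ V : Subgroup GQ, IsOpen (V : Set GQ) ∧ ∀ s ∈ V, Eqv (p.1 ^ k) (th X s φ) φ := by
  obtain ⟨m, h1, h2, h3⟩ := ex_par hU hz
  obtain ⟨E, η, h0, h4, le⟩ := lv_any h1
  have : NeZero E := ⟨h0.ne'⟩
  obtain ⟨V, h5, h6, -⟩ := par_fix (pow_pos p.2.pos k) X h2 h3 ⟨h0, h4⟩ le h
  exact ⟨V, h5, h6⟩

variable {l : Pr} (h2 : l.1 ≠ 2) (hl : l ≠ p) (ha : (lc l).At (Kl l) U) {P : Ideal (𝓞 Qb)}
  (hP : Ov l P)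

omit hU hz in
theorem nd_pow (hl : l ≠ p) (m : ℕ) : ¬ l.1 ∣ p.1 ^ m := fun h =>
  hl (Subtype.ext ((Nat.prime_dvd_prime_iff_eq l.2 p.2).1 (l.2.dvd_of_dvd_pow h)))

omit hU hz in
theorem at_inf (hl : l ≠ p) (ha : (lc l).At (Kl l) U) (m : ℕ) :
    (lc l).At (Kl l) (U ⊓ UN (p.1 ^ m)) :=
  ⟨fun g hg => ⟨ha.1 g hg, (at_UN l (nd_pow hl m)).1 g hg⟩, fun u hu => ha.2 u hu.1⟩

include h2 hl ha hP

/-- **ur** -/
theorem kr_ur (h : Kr _ z φ) {s : GQ} (hs : s ∈ inP P) : Eqv (p.1 ^ k) (th X s φ) φ := by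
  obtain ⟨m, h1, h3, h4⟩ := ex_par hU hz
  obtain ⟨E, η, h0, h5, hE, -, le, -⟩ := lv_K h1 l h2 (at_inf hl ha m)
  have : NeZero E := ⟨h0.ne'⟩
  obtain ⟨V, -, h6, h7⟩ := par_fix (pow_pos p.2.pos k) X h3 h4 ⟨h0, h5⟩ le h
  exact h6 s (h7 l P hP hE (nd_pow hl k) hs)

/-- **es** -/
theorem kr_es {σ : GQ} (hσ : Fb l P σ) (h : Kr _ z φ)
    (h' : Kr _ (fun γ => hk ((lc l).To U) U (z γ)) φ') :
    Eqv (p.1 ^ k) (th X σ (th X σ φ) * φ ^ l.1) (th X σ φ') := by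
  obtain ⟨m, h1, h3, h4⟩ := ex_par hU hz
  have := (lc l).fin
  have := Fintype.ofFinite (IsLocalRing.ResidueField ℤ_[l])
  refine par_es (pow_pos p.2.pos k) X h1 h3 h4 h2 (nd_pow hl k) (at_inf hl ha m) hP hσ h ?_
  rwa [show (fun γ => hk ((lc l).To _) _ (z γ)) = fun γ => hk ((lc l).To U) U (z γ) from
    funext fun γ => ((at_inf hl ha m).hk_To h1 (h3.1 γ)).trans (ha.hk_To hU (hz.1 γ)).symm]

end

/-- **kum0**: a Kummer root at every level that is deep enough at `p` -/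
theorem kum0 (X : Mdl) (p : Pr) (hU : U ∈ TQ.Lev) (k : ℕ) : ∃ m : ℕ,
    ∀ z ∈ TQ.Z1 (tz (p.1 ^ k)) U, ∀ (N : ℕ) [NeZero N], 4 ∣ N → ∀ U' ∈ TQ.Lev, U' ≤ U →
      U' ≤ Cl.UU N (p.1 ^ m) → ∃ h, TQ.Kum _ U' h z ∧ FV (h ^ p.1 ^ k) := by
  obtain ⟨m, h⟩ := par_deep p hU k
  exact ⟨m, fun z hz N _ h4 U' hU' h1 h2 => kum_par (pow_pos p.2.pos k) X h4 hU'
    (h2.trans (Cl.UU_le (pow_pos p.2.pos m))) (Z1_le hz h1)
    (h z hz U' hU' h1 fun u hu => (Cl.mem_UU.1 (h2 hu)).1)⟩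

end Vale.Agent.P004M.Mo
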