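import Vale.Agent.P004M.Mo.Jz

/-!
# P004M: admissibility and the row `J` for any quotient of the cohomology
-/

set_option autoImplicit false
set_option linter.all false

noncomputable section

namespace Vale.Agent.P004M.Mo

open Vale.Agent.P022 Vale.Agent.P022K Vale.Agent.P022K.Sh Vale.Agent.P022K.QT
open Vale.Agent.P022K.WB Vale.Agent.P022K.QT.Cl Sh.Tw

/-- the underlying integral representation -/
def toZ {R Γ M : Type} [CommRing R] [Group Γ] [AddCommGroup M] [Module R M]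
    (ρ : Representation R Γ M) : Representation ℤ Γ M where
  toFun g := (ρ g).toAddMonoidHom.toIntLinearMap
  map_one' := LinearMap.ext fun v => by simp
  map_mul' g h := LinearMap.ext fun v => by simp

theorem Sd_toZ {R Γ M : Type} [CommRing R] [Group Γ] [AddCommGroup M] [Module R M]
    (ρ : Representation R Γ M) (p : ℕ) : ∀ d, ∀ v ∈ Ar.Sd ρ p d, v ∈ Ar.Sd (toZ ρ) p d
  | 0, _, h => h
  | d + 1, _, h => Ar.mem_Sd.2 ⟨Sd_toZ ρ p d _ (Ar.mem_Sd.1 h).1,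
      fun γ => Sd_toZ ρ p d _ ((Ar.mem_Sd.1 h).2 γ)⟩

theorem fin_QZ : {b : QZ | 2 • b = 0}.Finite := by
  refine (Set.finite_range fun a : ZMod 2 =>
    (QuotientAddGroup.mk ((a.val : ℚ_[2]) / 2) : QZ)).subset fun b hb => ?_
  obtain ⟨x, rfl⟩ := QuotientAddGroup.mk_surjective b
  let y : ℤ_[2] := ⟨2 • x, (PadicInt.mem_subring_iff 2).1 ((QuotientAddGroup.eq_zero_iff _).1 hb)⟩
  obtain ⟨t, ht⟩ := Ideal.mem_span_singleton'.1 ((PadicInt.maximalIdeal_eq_span_p (p := 2)).le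
    (PadicInt.toZMod_spec y))
  refine ⟨PadicInt.toZMod y, (QuotientAddGroup.eq_iff_sub_mem.2 ?_).symm⟩
  have e := congrArg (fun s : ℤ_[2] => (s : ℚ_[2])) ht
  simp only [ZMod.cast_eq_val, PadicInt.coe_mul, PadicInt.coe_sub, PadicInt.coe_natCast,
    show (y : ℚ_[2]) = 2 • x from rfl, nsmul_eq_mul] at e
  rw [show x - _ = (t : ℚ_[2]) by push_cast at e; linear_combination -e / 2]
  exact t.2

variable {N : ℕ} [NeZero N]

/-- words on smooth cocycles -/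
def oZ (P : FreeAlgebra ℤ (PA N)) (z : ZQ N QZ) : ZQ N QZ :=
  ⟨fun γ => Wt.op N QZ P (z.1 γ), z.2.1.imp fun _ h => Wt.op_Z1 P h, z.2.2.imp fun k h =>
    funext fun γ => (map_nsmul _ _ _).symm.trans ((congrArg _ (congrFun h γ)).trans (map_zero _))⟩

theorem ja (h4 : 4 ∣ N) (hz : ZAD N QZ) {M : Type} [AddCommGroup M] [Module (RR N) M]
    (ρ : Representation (RR N) (G2 2) M) (π : ZQ N QZ →+ M) (hs : Function.Surjective π)
    (he : ∀ g z, π (rZ N QZ g z) = ρ g (π z))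
    (h0 : ∀ (z : ZQ N QZ) n, z.1 ∈ TQ.B1 (tQ QZ) (LL N n) → π z = 0)
    (hh : ∀ P z, π (oZ P z) = ab P • π z) :
    Adm ρ ⊤ ∧ (∀ a v, ρ (dd a a) v = v) ∧ ∃ q c : ℕ, ∀ (D : ℕ) (P : FreeAlgebra ℤ (PA N)),
      (∀ m ≤ c * (D + 1), Wt.Kil 0 (rw ℚ_[2] m) P) →
        ∀ v ∈ Ar.Sd (ρ.comp (Kn 2 (q + 2)).subtype) 2 D, ab P • v = 0 := by
  obtain ⟨q, A, _, σ, i, h1, h2, h3⟩ := hz fin_QZ
  let φ : A →ₗ[ℤ] M := π.toIntLinearMap ∘ₗ i
  have e : ∀ k a, φ (σ k a) = toZ (ρ.comp (Kn 2 (q + 2)).subtype) k (φ a) := fun k a =>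
    (congrArg π (h2 k a)).trans (he _ _)
  have s : Function.Surjective φ := fun v => by
    obtain ⟨z, rfl⟩ := hs v
    obtain ⟨a, n, h⟩ := h3 z
    exact ⟨a, (sub_eq_zero.1 ((map_sub π _ _).symm.trans (h0 (z - i a) n h))).symm⟩
  have h5 := h1.quo Iw.uo_K Nat.prime_two φ e s
  refine ⟨⟨fun _ _ _ => trivial, fun v _ => ?_, fun v _ => h5.tor v, h5.fin.subset
    fun v hv => ⟨hv.2.1, fun k => hv.2.2 _ (Kn_le_I1 (Nat.succ_pos _) k.2)⟩⟩, fun a v => ?_, ?_⟩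
  · obtain ⟨t, ht⟩ := h5.sm v
    exact ⟨t + (q + 2), fun g hg => ht ⟨g, Kn_anti (Nat.le_add_left _ _) hg⟩
      (Iw.mem_NK.2 ⟨1, g, hg, by simp⟩)⟩
  · obtain ⟨z, rfl⟩ := hs v
    obtain ⟨n, hn⟩ := z.2.1
    exact (he _ _).symm.trans (congrArg π (Subtype.ext (funext₂ fun γ x => hn.1 γ x _
      (QT.Z_le (LL_mem N n) ((lc q2).cen _
        (Subgroup.mem_center_iff.2 fun g => (dd_comm a g).symm))))))
  · obtain ⟨c, hc⟩ := jz h4 q
    obtain ⟨d, hd⟩ := Ar.ar Iw.uo_K Nat.prime_two h1 φ e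
    refine ⟨q, c * (d + 1), fun D P hP v hv => ?_⟩
    obtain ⟨a, rfl⟩ := s v
    obtain ⟨w, hw, e'⟩ := hd D a (Sd_toZ _ _ _ _ hv)
    obtain ⟨n, hn⟩ := hc (D + d) P (fun m hm => hP m (hm.trans (by
      rw [mul_assoc]; exact Nat.mul_le_mul_left _ (by nlinarith)))) (i w)
      (Ar.Sd_map i h2 _ _ hw)
    exact e' ▸ (hh P (i w)).symm.trans (h0 _ n hn)

end Vale.Agent.P004M.Mo
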