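import Vale.Agent.P004M.Mo.Lv
import Vale.Agent.P004M.Poly
import Vale.Agent.P004M.Wt2

/-!
# P004M: words that kill small weights kill cocycles of small degree
-/

set_option autoImplicit false
set_option linter.all false

noncomputable section

namespace Vale.Agent.P004M.Mo

open Vale.Agent.P022 Vale.Agent.P022K Vale.Agent.P022K.Sh Vale.Agent.P022K.QT
open Vale.Agent.P022K.WB Vale.Agent.P022K.QT.Cl Sh.Tw

namespace Jz

/-- families of matrices -/
abbrev Ms : Type := ∀ m : ℕ, Matrix (Fin (2 * m + 1)) (Fin (2 * m + 1)) ℚ_[2]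

/-- left multiplication -/
def ac : G2 2 →* Module.End ℤ Ms where
  toFun g := (AddMonoidHom.mk' (fun (A : Ms) m => syd m g * A m)
    fun A B => funext fun m => mul_add _ _ _).toIntLinearMap
  map_one' := LinearMap.ext fun A => funext fun m => by simp
  map_mul' g h := LinearMap.ext fun A => funext fun m => by simp [mul_assoc]

theorem ac_ap (g : G2 2) (A : Ms) (m : ℕ) : ac g A m = syd m g * A m := rfl

/-- matrix coefficients -/
def EE (n : ℕ) (g : G2 2) : Ms →+ QZ := (QuotientAddGroup.mk' _).comp (AddMonoidHom.mk'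
  (fun A => ∑ m ∈ Finset.range n, (syd m g⁻¹ * A m).trace) fun A B => by
    simp [mul_add, Finset.sum_add_distrib])

theorem EE_ap (n : ℕ) (g : G2 2) (A : Ms) : EE n g A =
    QuotientAddGroup.mk (∑ m ∈ Finset.range n, (syd m g⁻¹ * A m).trace) := rfl

theorem EE_ac (n : ℕ) (g h : G2 2) (A : Ms) : EE n g (ac h A) = EE n (h⁻¹ * g) A := by
  simp only [EE_ap, ac_ap, mul_inv_rev, inv_inv, map_mul, mul_assoc]

theorem EE_sm (n : ℕ) (A : Ms) : ∃ i, ∀ g ∈ U1 q2 0, ∀ h ∈ U1 q2 i, EE n (g * h) A = EE n g A := by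
  obtain ⟨i, hi⟩ := pow_unbounded_of_one_lt (∑ m ∈ Finset.range n, ∑ a, ∑ b, ‖A m a b‖)
    (one_lt_two (α := ℝ))
  refine ⟨i, fun g hg h hh => QuotientAddGroup.eq_iff_sub_mem.2 ?_⟩
  simp only [AddMonoidHom.mk'_apply, ← Finset.sum_sub_distrib]
  refine sum_mem fun m hm => ?_
  obtain ⟨σ, e, -⟩ := Wt.syd_int (m := m) (inv_mem hg)
  obtain ⟨τ, e', h1⟩ := Wt.syd_int (m := m) (inv_mem hh)
  rw [mul_inv_rev, map_mul, ← Matrix.trace_sub, ← sub_mul, ← sub_one_mul]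
  refine sum_mem fun a _ => ?_
  rw [Matrix.diag_apply, Matrix.mul_apply]
  refine sum_mem fun c _ => (PadicInt.mem_subring_iff _).2 ?_
  have h2 : ‖A m c a‖ ≤ 2 ^ i := le_trans (le_trans (le_trans
    (Finset.single_le_sum (f := fun b => ‖A m c b‖) (fun _ _ => norm_nonneg _) (Finset.mem_univ a))
    (Finset.single_le_sum (f := fun a => ∑ b, ‖A m a b‖) (fun _ _ => by positivity)
      (Finset.mem_univ c))) (Finset.single_le_sum (f := fun m => ∑ a, ∑ b, ‖A m a b‖)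
      (fun _ _ => by positivity) hm)) hi.le
  have h3 : ((τ - 1) * σ) a c ∈ RingHom.ker (PadicInt.toZModPow i) := by
    have := congrFun₂ ((PadicInt.toZModPow i).mapMatrix.map_mul (τ - 1) σ) a c
    rw [map_sub, map_one, show (PadicInt.toZModPow i).mapMatrix τ = 1 from h1 i le_rfl, sub_self,
      zero_mul] at this
    exact this
  rw [PadicInt.ker_toZModPow, ← PadicInt.norm_le_pow_iff_mem_span_pow] at h3
  have h4 := congrFun₂ ((PadicInt.Coe.ringHom (p := q2)).mapMatrix.map_mul (τ - 1) σ) a c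
  rw [map_sub, map_one, show PadicInt.Coe.ringHom.mapMatrix τ = _ from e',
    show PadicInt.Coe.ringHom.mapMatrix σ = _ from e] at h4
  refine (norm_mul_le _ _).trans ((mul_le_mul ((congrArg norm h4).ge.trans h3) h2 (norm_nonneg _)
    (by positivity)).trans_eq ?_)
  rw [zpow_neg, zpow_natCast]
  exact inv_mul_cancel₀ (by positivity)

variable (N : ℕ) [NeZero N]

/-- the local level -/
abbrev V2 : Subgroup (G2 2) := VV N 1 q2

/-- the component at two -/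
abbrev j2 : G0 →* G2 2 := (QT.ev q2).comp TQ.j

/-- the big coefficients -/
def rb : Representation ℤ G0 (G2 2 ⧸ V2 N → Ms) where
  toFun γ := (ac (j2 γ)).compLeft _ ∘ₗ LinearMap.funLeft ℤ _ ((j2 γ)⁻¹ • ·)
  map_one' := LinearMap.ext fun C => funext fun q => by simp [LinearMap.funLeft_apply]
  map_mul' γ δ := LinearMap.ext fun C => funext fun q => by
    simp [LinearMap.funLeft_apply, mul_smul]

theorem rb_ap (γ : G0) (C : G2 2 ⧸ V2 N → Ms) (q : G2 2 ⧸ V2 N) :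
    rb N γ C q = ac (j2 γ) (C ((j2 γ)⁻¹ • q)) := rfl

/-- left translation -/
def rl : Representation ℤ G0 (G2 2 → QZ) where
  toFun γ := LinearMap.funLeft ℤ _ ((j2 γ)⁻¹ * ·)
  map_one' := LinearMap.ext fun C => funext fun q => by simp [LinearMap.funLeft_apply]
  map_mul' γ δ := LinearMap.ext fun C => funext fun q => by
    simp [LinearMap.funLeft_apply, mul_assoc]

/-- locally polynomial functions -/
def ll (n : ℕ) : (G2 2 ⧸ V2 N → Ms) →ₗ[ℤ] (G2 2 → QZ) :=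
  (AddMonoidHom.mk' (fun (C : G2 2 ⧸ V2 N → Ms) (g : G2 2) => EE n g (C g))
    fun A B => funext fun g => map_add _ _ _).toIntLinearMap

theorem ll_ap (n : ℕ) (C : G2 2 ⧸ V2 N → Ms) (g : G2 2) : ll N n C g = EE n g (C g) := rfl

theorem ll_rb (n : ℕ) (γ : G0) (C : G2 2 ⧸ V2 N → Ms) : ll N n (rb N γ C) = rl γ (ll N n C) :=
  funext fun g => EE_ac n g _ _

variable {N}

theorem of_V2 (h2 : 2 ∣ N) {k : G2 2} (h : k ∈ V2 N) : ∃ k' ∈ I1 2, ∃ z ∈ Zl ℚ_[2], k = k' * z := by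
  obtain ⟨k', hk, c, e, h1⟩ := of_VV h
  refine ⟨k', ?_, _, scalar_mem c, e⟩
  have h3 : ‖k'.val 1 0‖ < 1 := h1.trans_lt (Padic.norm_natCast_lt_one_iff.2 h2)
  have h4 := (mem_Kl.1 hk).1
  have h5 := norm_det hk
  rw [Matrix.det_fin_two] at h5
  have h6 : ‖k'.val 0 0 * k'.val 1 1‖ = 1 := by
    have h7 : ‖k'.val 0 1 * k'.val 1 0‖ < 1 := by
      rw [norm_mul]
      exact mul_lt_one_of_nonneg_of_lt_one_right (h4 0 1) (norm_nonneg _) h3
    rw [← h5, ← sub_add_cancel (k'.val 0 0 * k'.val 1 1) (k'.val 0 1 * k'.val 1 0),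
      Padic.add_eq_max_of_ne (by rw [h5]; exact h7.ne'), add_sub_cancel_right, h5,
      max_eq_left h7.le]
  have u : ∀ x : ℚ_[2], ‖x‖ = 1 → ‖x - 1‖ < 1 := fun x hx => by
    obtain ⟨x, rfl⟩ : ∃ y : ℤ_[2], (y : ℚ_[2]) = x := ⟨⟨x, hx.le⟩, rfl⟩
    have h8 : PadicInt.toZMod (x - 1) = 0 := by
      have := ((PadicInt.isUnit_iff (z := x)).2 hx).map PadicInt.toZMod
      rw [map_sub, map_one]
      revert this
      generalize PadicInt.toZMod x = y
      revert y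
      decide
    rw [← RingHom.mem_ker, PadicInt.ker_toZMod] at h8
    exact PadicInt.mem_nonunits.1 h8
  rw [norm_mul] at h6
  have a := h4 0 0
  have b := h4 1 1
  have a0 := norm_nonneg (k'.val 0 0)
  have b0 := norm_nonneg (k'.val 1 1)
  exact ⟨u _ (by nlinarith), h4 0 1, h3, u _ (by nlinarith)⟩

theorem ex_C (h4 : 4 ∣ N) {n n0 : ℕ} {z : G0 → G → QZ} (hz0 : z ∈ TQ.Z1 (tQ QZ) (LL N n0))
    (h2 : ∀ γ x, ∃ A, ∀ k ∈ V2 N, z γ (x * io q2 k) = EE n k A) :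
    ∃ C ∈ TQ.Z1 (rb N) (UU N 1), ∀ γ x (g : G2 2),
      z γ (x * io q2 ((QT.ev q2 x)⁻¹ * g)) = EE n g (C γ x g) := by
  choose A hA using h2
  have hy : ∀ γ x, (fun g : G2 2 => z γ (x * io q2 ((QT.ev q2 x)⁻¹ * g))) ∈
      LinearMap.range (ll N n) := fun γ x =>
    ⟨fun o => ac o.out (A γ (x * io q2 ((QT.ev q2 x)⁻¹ * o.out))), funext fun g => by
      rw [ll_ap, EE_ac, ← hA _ _ _ (QuotientGroup.eq.1 (QuotientGroup.out_eq' (g : G2 2 ⧸ V2 N)))]
      simp [mul_assoc]⟩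
  obtain ⟨C, hC, e⟩ := mnq.lif (ρ := rl.subrepresentation (LinearMap.range (ll N n))
      (by rintro γ _ ⟨C, rfl⟩; exact ⟨_, ll_rb N n γ C⟩)) (ρ' := rb N) okq (UU_mem one_pos)
    (neat_UU h4) (fun ζ hζ => LinearMap.ext fun C => funext fun o => by
      have hw : j2 ζ ∈ Zl ℚ_[2] := (lc q2).cen' _ ((okq.z0 ζ).1 hζ)
      obtain ⟨g, rfl⟩ := QuotientGroup.mk_surjective o
      rw [rb_ap, show (j2 ζ)⁻¹ • (g : G2 2 ⧸ V2 N) = g from QuotientGroup.eq.2 (by
        beta_reduce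
        rw [smul_eq_mul, mul_inv_rev, inv_inv, mul_assoc, ← Subgroup.mem_center_iff.1 hw,
          inv_mul_cancel_left]
        exact Zl_le q2 hw)]
      exact funext fun m => by rw [ac_ap, Wt.syd_Z hw, one_mul]; rfl)
    (ll N n).rangeRestrict.toAddMonoidHom (ll N n).surjective_rangeRestrict
    (fun γ C => Subtype.ext (ll_rb N n γ C)) (z := fun γ x => ⟨_, hy γ x⟩)
    ⟨fun γ x u hu => Subtype.ext (funext fun g => by
      have hu' : u * (io q2 (QT.ev q2 u))⁻¹ ∈ UU N 1 ⊓ (QT.ev q2).ker :=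
        ⟨(UU N 1).mul_mem hu ((UU N 1).inv_mem (Wt.io_mem hu)), ev_away q2 u⟩
      refine Eq.trans (congrArg (z γ) ?_) (hz0.1 γ _ _ (tame_le q2 n0 hu'))
      rw [mul_assoc x (io q2 _), (io_com q2 _ _ hu'.2).eq]
      simp [mul_assoc]), fun γ δ => funext fun x => Subtype.ext (funext fun g => by
      refine (coc_pt hz0 γ δ _).trans (congrArg (_ + z δ ·) ?_)
      simp [mul_assoc]), fun ζ hζ => funext fun x => Subtype.ext (funext fun g =>
      congrFun (hz0.2.2 ζ hζ) _)⟩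
  exact ⟨C, hC, fun γ x g => congrFun (congrArg Subtype.val (e γ x)) g⟩

theorem rw_col (m : ℕ) (γ : G0) (M : Matrix (Fin (2 * m + 1)) (Fin (2 * m + 1)) ℚ_[2])
    (j : Fin (2 * m + 1)) :
    rw ℚ_[2] m γ (fun k => M (k ()) j) = fun k => (syd m (j2 γ) * M) (k ()) j :=
  funext fun k => by
    rw [rw_apply, show j2 γ = jl q2 γ.1 from rfl, syd_map]
    rfl

theorem cob {n n0 : ℕ} {z : G0 → G → QZ} (hz0 : z ∈ TQ.Z1 (tQ QZ) (LL N n0))
    {P : FreeAlgebra ℤ (PA N)} (hP : ∀ m ≤ n, Wt.Kil 0 (rw ℚ_[2] m) P) {C : G0 → G → Ms}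
    (hC : ∀ m j, (fun γ x k => C γ x m (k ()) j) ∈ TQ.Z1 (rw ℚ_[2] m) (UU N 1))
    (e1 : ∀ γ, z γ = fun x => EE n (QT.ev q2 x) (C γ x)) :
    ∃ n, (fun γ => Wt.op N QZ P (z γ)) ∈ TQ.B1 (tQ QZ) (LL N n) := by
  have h3 : ∀ m j, ∃ F : G → Vw ℚ_[2] Unit m, Inv (UU N 1) F ∧ (m ≤ n → ∀ γ,
      Wt.op N (Vw ℚ_[2] Unit m) P (fun x k => C γ x m (k ()) j) = TQ.lt (rw ℚ_[2] m) γ F - F) := fun m j => by
    by_cases hm : m ≤ n
    · exact (hP m hm _ (hC m j)).imp fun F h => ⟨h.1, fun _ => h.2⟩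
    · exact ⟨0, fun _ _ _ => rfl, fun h => absurd h hm⟩
  choose F hF1 hF2 using h3
  let F1 : G → Ms := fun x m k j => F m j x fun _ => k
  let F2 : G → QZ := fun x => EE n (QT.ev q2 x) (F1 x)
  have e3 : ∀ γ x, Wt.op N QZ P (z γ) x = F2 ((TQ.j γ)⁻¹ * x) - F2 x := fun γ x => by
    have h4 := congrFun (Wt.op_nat id (fun x => EE n (QT.ev q2 x)) (fun x l g => ⟨rfl, by
      rw [map_mul, ev_io_ne (Wt.ne2 l), mul_one]⟩) P (C γ)) x
    rw [e1]
    refine h4.trans ?_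
    simp only [F2, map_mul, map_inv]
    refine Eq.trans ?_ ((map_sub _ _ _).trans (congrArg (· - _) (EE_ac n _ (j2 γ) _)))
    rw [EE_ap, EE_ap]
    refine congrArg QuotientAddGroup.mk (Finset.sum_congr rfl fun m hm => ?_)
    congr 2
    ext k j
    have h5 := congrFun (congrFun (hF2 m j (Finset.mem_range.1 hm).le γ) x) fun _ => k
    have h6 := congrFun (congrFun (Wt.op_nat id (fun _ => AddMonoidHom.mk'
      (fun (M : Ms) (k : Unit → _) => M m (k ()) j) fun _ _ => rfl)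
      (fun _ _ _ => ⟨rfl, rfl⟩) P (C γ)) x) fun _ => k
    exact h6.symm.trans (h5.trans (congrArg (· - _)
      (congrFun (rw_col m γ (F1 ((TQ.j γ)⁻¹ * x) m) j) fun _ => k)))
  obtain ⟨i, hi⟩ := EE_sm n (F1 1)
  refine ⟨n0 + i, F2, fun x u hu => ?_, fun γ => funext (e3 γ)⟩
  have h7 : ∀ w ∈ UU N 1, F1 w = F1 1 := fun w hw => by
    funext m k j
    simpa using congrFun (hF1 m j 1 w hw) fun _ => k
  have h8 := kp_mem (N := N) x
  have h9 := Wt.op_inv n0 P _ (hz0.1 (kp N x)) x u (UU_anti q2 (Nat.le_add_right _ _) hu)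
  rw [e3, e3, ← mul_assoc] at h9
  refine (sub_right_inj.1 (h9.trans (congrArg (· - _) ?_)))
  simp only [F2]
  rw [h7 _ h8, h7 _ (mul_mem h8 (UU_le (pow_pos two_pos _) hu)), map_mul _ _ u]
  refine (hi _ (by simpa using Wt.U1_of h8 q2) _ (U1_anti q2 ?_ (Wt.U1_of hu q2))).symm
  exact (Nat.le_add_left _ _).trans (Nat.factorization_pow_self Nat.prime_two).ge

end Jz

open Jz

theorem jz {N : ℕ} [NeZero N] (h4 : 4 ∣ N) : JZ N := fun q => by
  obtain ⟨c, hc⟩ := Pol.polyM 2 q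
  refine ⟨c, fun D P hP z hz => ?_⟩
  have cen : ∀ (v : ZQ N QZ) (w : G2 2), w ∈ Zl ℚ_[2] → ∀ γ x, v.1 γ (x * io q2 w) = v.1 γ x :=
    fun v w hw γ x => v.2.1.elim fun n h => h.1 γ x _ (QT.Z_le (LL_mem N n) ((lc q2).cen w hw))
  have h1 := hc (rZ N QZ) (fun a v => Subtype.ext (funext₂ (cen v _
    (Subgroup.mem_center_iff.2 fun g => (dd_comm a g).symm)))) (fun v => v.2.1.elim fun n h =>
      ((lc q2).op _ (LL_mem N n)).imp fun m e k hk => Subtype.ext (funext₂ fun γ x =>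
        h.1 γ x _ (e ((Top.Gk.Km_eq m).ge hk)))) D z hz
  obtain ⟨n0, hz0⟩ := z.2.1
  obtain ⟨C, hC, e⟩ := ex_C h4 (n := c * (D + 1)) hz0 fun γ x =>
    (h1 (AddMonoidHom.mk' (fun v => v.1 γ x) fun _ _ => rfl)).imp fun A hA k hk => by
      obtain ⟨k, h, w, hw, rfl⟩ := of_V2 ((by norm_num : 2 ∣ 4).trans h4) hk
      refine ((congrArg (z.1 γ) ((congrArg (x * ·) (map_mul (io q2) k w)).trans
        (mul_assoc _ _ _).symm)).trans (cen z w hw γ _)).trans ((hA k h).trans ?_)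
      simp only [EE_ap, mul_inv_rev, map_mul, Wt.syd_Z (inv_mem hw), one_mul]
  refine cob hz0 hP (C := fun γ x => C γ x (QT.ev q2 x : G2 2)) (fun m j => ⟨fun γ x u hu => ?_,
    fun γ δ => funext fun x => ?_, fun ζ hζ => funext fun x => ?_⟩) fun γ => funext fun x => ?_
  · simp only [hC.1 γ x u hu, map_mul]
    rw [QuotientGroup.mk_mul_of_mem (s := V2 N) _ (mem_PU.1 hu q2)]
  · simp only [coc_pt hC, Pi.add_apply, Tw.lt, rw_col, rb_ap, ac_ap, map_mul, map_inv]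
    rfl
  · simp only [hC.2.2 ζ hζ]
    rfl
  · simpa using e γ x (QT.ev q2 x)

end Vale.Agent.P004M.Mo
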