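import Vale.Agent.P004M.Mo.St
import Vale.Agent.P022K.Iw.Gl

/-!
# P004M: levels; smooth cocycles with values in `ℚ₂ / ℤ₂`
-/

set_option autoImplicit false
set_option linter.all false

noncomputable section

namespace Vale.Agent.P004M.Mo

open Vale.Agent.P022 Vale.Agent.P022K Vale.Agent.P022K.Sh Vale.Agent.P022K.QT
open Vale.Agent.P022K.WB Vale.Agent.P022K.QT.Cl Sh.Tw

theorem Z1_anti {Λ B : Type} [CommRing Λ] [AddCommGroup B] [Module Λ B]
    {σ : Representation Λ G0 B} {U V : Subgroup G} (h : V ≤ U) {z : G0 → G → B}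
    (hz : z ∈ TQ.Z1 σ U) : z ∈ TQ.Z1 σ V :=
  ⟨fun γ x u hu => hz.1 γ x u (h hu), hz.2⟩

theorem B1_anti {Λ B : Type} [CommRing Λ] [AddCommGroup B] [Module Λ B]
    {σ : Representation Λ G0 B} {U V : Subgroup G} (h : V ≤ U) {z : G0 → G → B}
    (hz : z ∈ TQ.B1 σ U) : z ∈ TQ.B1 σ V :=
  hz.imp fun _ k => ⟨fun x u hu => k.1 x u (h hu), k.2⟩

theorem io_PU {V : ∀ p, Subgroup (Gl p)} (p : Pr) {g : Gl p} (h : g ∈ V p) : io p g ∈ PU V :=
  mem_PU.2 fun q => by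
    by_cases e : q = p
    · subst e
      rwa [ev_io]
    · rw [ev_io_ne e]
      exact one_mem _

theorem ev_away (p : Pr) (x : G) : QT.ev p (x * (io p (ev p x))⁻¹) = 1 := by
  rw [map_mul, map_inv, ev_io, mul_inv_cancel]

variable {N : ℕ} [NeZero N]

/-- the levels `UU N (p ^ n)` are cofinal among the levels with the tame part of `UU N 1` -/
theorem cof (p : Pr) {S : Subgroup G} (h0 : UU N 1 ⊓ (QT.ev p).ker ≤ S) (hz : TQ.Z ≤ S) {m : ℕ}
    (h : ∀ g ∈ Km ℤ_[p] ℚ_[p] m, io p g ∈ S) : UU N (p ^ m) ≤ S := fun u hu => by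
  have h1 := UU_le (pow_pos p.2.pos m) hu
  have h2 : QT.ev p u ∈ U1 p m := by
    have := (mem_PU.1 hu p).1
    rwa [p.2.factorization_pow, Finsupp.single_eq_same] at this
  rw [← inv_mul_cancel_right u (io p (QT.ev p u))]
  refine mul_mem (h0 ⟨(UU N 1).mul_mem h1 ((UU N 1).inv_mem (io_PU p (mem_PU.1 h1 p))),
    ev_away p u⟩) ?_
  obtain ⟨k, hk, z, hz', e⟩ := Subgroup.mem_sup_of_normal_right.1 h2
  rw [← e, map_mul]
  exact mul_mem (h k hk) (hz ((lc p).cen z hz'))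

theorem cof' (p : Pr) {U : Subgroup G} (hU : U ∈ TQ.Lev) (h0 : UU N 1 ⊓ (QT.ev p).ker ≤ U) :
    ∃ m, UU N (p ^ m) ≤ U :=
  ((lc p).op U hU).imp fun _ h => cof p h0 (QT.Z_le hU) h

theorem tame_le (p : Pr) (m : ℕ) : UU N 1 ⊓ (QT.ev p).ker ≤ UU N (p ^ m) := fun u hu =>
  mem_PU.2 fun q => by
    by_cases e : q = p
    · subst e
      rw [show QT.ev q u = 1 from hu.2]
      exact one_mem _
    · have := mem_PU.1 hu.1 q
      rw [VV, Nat.factorization_one] at this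
      rwa [VV, p.2.factorization_pow, Finsupp.single_eq_of_ne fun k => e (Subtype.ext k)]

theorem UU_anti (p : Pr) {m n : ℕ} (h : m ≤ n) : UU N (p ^ n) ≤ UU N (p ^ m) := fun _ hx =>
  mem_UU.2 ⟨UN_anti (pow_pos p.2.pos n) (pow_dvd_pow _ h) (mem_UU.1 hx).1, (mem_UU.1 hx).2⟩

theorem of_VV {p : Pr} {g : Gl p} (h : g ∈ VV N 1 p) : ∃ k ∈ Kl p, ∃ c : ℚ_[p]ˣ,
    g = k * Matrix.GeneralLinearGroup.scalar _ c ∧ ‖k.val 1 0‖ ≤ ‖(N : ℚ_[p])‖ := by
  obtain ⟨h1, h2⟩ := h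
  rw [Nat.factorization_one, Finsupp.zero_apply, U1_zero] at h1
  obtain ⟨k, hk, z, hz, rfl⟩ := Subgroup.mem_sup_of_normal_right.1 h1
  obtain ⟨c, rfl⟩ := scalar_of_mem hz
  obtain ⟨k', hk', z, hz, e⟩ := Subgroup.mem_sup_of_normal_right.1 (mem_cj.1 h2)
  obtain ⟨c', rfl⟩ := scalar_of_mem hz
  refine ⟨k, hk, c, rfl, ?_⟩
  rw [mul_assoc, eq_inv_mul_iff_mul_eq, dN] at e
  have e1 := congrArg (fun g : Gl p => ‖g.val.det‖) e
  have e2 := congrArg (fun g : Gl p => ‖g.val 1 0‖) e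
  have N0 : ‖(N : ℚ_[p])‖ ≠ 0 := norm_ne_zero_iff.2 (Nat.cast_ne_zero.2 (NeZero.ne N))
  simp only [Units.val_mul, Matrix.det_mul, norm_mul, norm_det hk, norm_det hk', jl_tq] at e1
  simp only [Units.val_mul, jl_tq] at e2
  simp [Matrix.mul_apply, Fin.sum_univ_two, Matrix.diagonal] at e2
  simp [Matrix.det_fin_two, mul_comm, N0] at e1
  rw [e1, ← mul_assoc, mul_left_inj' (norm_ne_zero_iff.2 c.ne_zero)] at e2
  rw [← e2]
  exact mul_le_of_le_one_right (norm_nonneg _) ((mem_Kl.1 hk').1 1 0)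

theorem neat_UU (h4 : 4 ∣ N) : TQ.Neat (UU N 1) := by
  refine neat_K0 (UU_mem one_pos) fun u hu => ?_
  obtain ⟨_, ⟨k, rfl⟩, c, e, h⟩ := of_VV (mem_PU.1 hu p2)
  refine ⟨k, _, scalar_mem c, ?_, e.symm⟩
  obtain ⟨n, rfl⟩ := h4
  have : ‖k 1 0‖ ≤ ‖(4 : ℤ_[p2])‖ := h.trans (by
    rw [Nat.cast_mul, norm_mul]
    exact mul_le_of_le_one_right (norm_nonneg _) (norm_nat n))
  have := Ideal.mem_span_singleton.1 ((PadicInt.norm_le_pow_iff_mem_span_pow (k 1 0) 2).1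
    (this.trans_eq (by
      rw [show (4 : ℤ_[p2]) = ((p2 : ℕ) : ℤ_[p2]) ^ 2 by norm_num [p2], PadicInt.norm_p_pow])))
  exact (dvd_of_eq (by norm_num [p2])).trans this

variable (B : Type) [AddCommGroup B]

/-- constant coefficients -/
abbrev tQ : Representation ℤ G0 B := Representation.trivial _ _ _

variable (N) in
/-- smooth torsion cocycles of the tame level -/
def ZQ : Submodule ℤ (G0 → G → B) where
  carrier := {z | (∃ n, z ∈ TQ.Z1 (tQ B) (LL N n)) ∧ ∃ k, 2 ^ k • z = 0}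
  add_mem' := fun {a b} ⟨⟨n, h⟩, k, e⟩ ⟨⟨n', h'⟩, k', e'⟩ =>
    ⟨⟨n + n', add_mem (Z1_anti (UU_anti q2 (Nat.le_add_right _ _)) h)
      (Z1_anti (UU_anti q2 (Nat.le_add_left _ _)) h')⟩, k + k', by
      rw [smul_add, pow_add, mul_nsmul a, mul_nsmul' b, e, e', smul_zero, smul_zero, add_zero]⟩
  zero_mem' := ⟨⟨0, zero_mem _⟩, 0, smul_zero _⟩
  smul_mem' := fun c z ⟨⟨n, h⟩, k, e⟩ =>
    ⟨⟨n, Submodule.smul_mem _ c h⟩, k, by rw [smul_comm, e, smul_zero]⟩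

theorem cj_LL (g : G2 2) (n : ℕ) : ∃ m, LL N m ≤ cj (io q2 g) (LL N n) :=
  cof' q2 (okq.conj _ (LL_mem N n) _) fun u hu => mem_cj.2 (by
    rw [mul_assoc, ← (io_com q2 g u hu.2).eq, inv_mul_cancel_left]
    exact tame_le q2 n hu)

theorem Z1_rt {Λ B : Type} [CommRing Λ] [AddCommGroup B] [Module Λ B]
    {σ : Representation Λ G0 B} {U : Subgroup G} {z : G0 → G → B} (hz : z ∈ TQ.Z1 σ U) (y : G) :
    (fun γ => rt y (z γ)) ∈ TQ.Z1 σ (cj y U) :=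
  ⟨fun γ x u hu => by
    have := hz.1 γ (x * y) _ (mem_cj.1 hu)
    simpa [rt, mul_assoc] using this, fun γ δ => by
    beta_reduce
    rw [hz.2.1, lt_rt]
    rfl, fun γ h => by
    beta_reduce
    rw [hz.2.2 γ h]
    rfl⟩

variable (N) in
/-- right translation -/
def rZ : Representation ℤ (G2 2) (ZQ N B) where
  toFun g := (LinearMap.funLeft ℤ B (· * io q2 g)).compLeft G0 |>.restrict
    fun z ⟨⟨n, h⟩, k, e⟩ => ⟨(cj_LL g n).imp fun _ le => Z1_anti le (Z1_rt h _), k, by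
      rw [← map_nsmul, e, map_zero]⟩
  map_one' := LinearMap.ext fun z => Subtype.ext (funext₂ fun γ x =>
    congrArg (z.1 γ) (show x * io q2 1 = x by rw [map_one, mul_one]))
  map_mul' g h := LinearMap.ext fun z => Subtype.ext (funext₂ fun γ x =>
    congrArg (z.1 γ) (show x * io q2 (g * h) = x * io q2 g * io q2 h by rw [map_mul, mul_assoc]))

theorem rZ_apply (g : G2 2) (z : ZQ N B) (γ : G0) (x : G) :
    (rZ N B g z).1 γ x = z.1 γ (x * io q2 g) := rfl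

variable (N) in
/-- **row ZAD**: an admissible module of cocycles that meets every class -/
def ZAD : Prop := {b : B | 2 • b = 0}.Finite → ∃ (q : ℕ) (A : Type) (_ : AddCommGroup A)
  (σ : Representation ℤ (Kn 2 (q + 2)) A) (i : A →ₗ[ℤ] ZQ N B), Ar.Ad σ 2 (Iw.NK 2 q) ∧
    (∀ k a, i (σ k a) = rZ N B k.1 (i a)) ∧
    ∀ z : ZQ N B, ∃ a n, z.1 - (i a).1 ∈ TQ.B1 (tQ B) (LL N n)

variable (N) in
/-- **row JZ**: words that kill small weights kill cocycles of small degree -/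
def JZ : Prop := ∀ q, ∃ c : ℕ, ∀ (D : ℕ) (P : FreeAlgebra ℤ (PA N)),
  (∀ m ≤ c * (D + 1), Wt.Kil 0 (rw ℚ_[2] m) P) →
    ∀ z ∈ Ar.Sd ((rZ N QZ).comp (Kn 2 (q + 2)).subtype) 2 D,
      ∃ n, (fun γ => Wt.op N QZ P (z.1 γ)) ∈ TQ.B1 (tQ QZ) (LL N n)

end Vale.Agent.P004M.Mo
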