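import Vale.Agent.P022K.QT.Wq
import Vale.Agent.P022K.WB.Lo
import Vale.Agent.P004M.Wt0
import Vale.Agent.P004M.Ar

/-!
# P004M: the module of the modular tower at `2` (statement)
-/

set_option autoImplicit false
set_option linter.all false

noncomputable section

namespace Vale.Agent.P004M.Mo

open Vale.Agent.P022 Vale.Agent.P022K Vale.Agent.P022K.Sh Vale.Agent.P022K.QT
open Vale.Agent.P022K.WB hiding th dl
open Vale.Agent.P022K.FI Vale.Agent.P022K.QT.Cl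
open Vale.Agent.P022.H443 (inP)
open Vale.Agent.P022E.GW (Ov Fb)
open Vale.Agent.P027M.M (Mdl FF cv)

export Vale.Agent.P004M.Wt (q2)

/-- the abstract Hecke ring -/
abbrev RR (N : ℕ) : Type := MvPolynomial (PA N) ℤ

/-- words to polynomials -/
def ab {N : ℕ} : FreeAlgebra ℤ (PA N) →ₐ[ℤ] RR N := FreeAlgebra.lift ℤ MvPolynomial.X

variable (N : ℕ) [NeZero N]

/-- the levels -/
abbrev LL (n : ℕ) : Subgroup G := UU N (2 ^ n)

/-- the tame level -/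
def T0 (p : Pr) (N : ℕ) [NeZero N] : Subgroup G := UU N 1 ⊓ (QT.ev p).ker

theorem LL_mem (n : ℕ) : LL N n ∈ TQ.Lev := UU_mem (pow_pos two_pos n)

variable {N}

/-- words in the Hecke operators on cohomology -/
def wH {Λ B : Type} [CommRing Λ] [AddCommGroup B] [Module Λ B] (σ : Representation Λ G0 B)
    (n : ℕ) : FreeAlgebra ℤ (PA N) →ₐ[ℤ] Module.End Λ (TQ.H1 σ (LL N n)) :=
  FreeAlgebra.lift ℤ fun l => TQ.hH σ (Wt.cor l n)

theorem wH_mk {Λ B : Type} [CommRing Λ] [AddCommGroup B] [Module Λ B] {σ : Representation Λ G0 B}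
    (n : ℕ) (P : FreeAlgebra ℤ (PA N)) (z : TQ.Z1 σ (LL N n)) :
    wH σ n P (Submodule.Quotient.mk z) = Submodule.Quotient.mk ⟨_, Wt.op_Z1 P z.2⟩ :=
  Wt.op_mk n P z

/-- the trivial representation modulo `n` -/
abbrev tv (n : ℕ) : Representation (ZMod n) G0 (ZMod n) := Representation.trivial _ _ _

/-- **the module** -/
structure Mo (X : Mdl) (e : Qb →+* CS 2) {ψ : ℚ_[2] → CS 2} (hψ : Psi 2 ψ) (lg : FF → ℤ → CS 2)
    {M : Type} [AddCommGroup M] [Module (RR N) M] (ρ : Representation (RR N) (G2 2) M)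
    (γ : Representation (RR N) GQ M) {ι : Type} (W : ι → M →+ Y 2 (CS 2))
    (im : ∀ k n, TQ.Hn (2 ^ k) (LL N n) →+ M) : Prop where
  adm : Adm ρ ⊤
  cen : ∀ a v, ρ (dd a a) v = v
  com : ∀ x s v, ρ x (γ s v) = γ s (ρ x v)
  sm : ∀ v, ∃ V : Subgroup GQ, IsOpen (V : Set GQ) ∧ ∀ s ∈ V, γ s v = v
  ur : ∀ l, ¬ l ∣ N → ∀ Q, Ov l Q → ∀ s ∈ inP Q, ∀ v, γ s v = v
  es : ∀ (l : PA N) Q φ, Ov l.1 Q → Fb l.1 Q φ → ∀ v,
    γ φ (γ φ v) - (MvPolynomial.X l : RR N) • γ φ v + l.1 • v = 0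
  wg : ∀ i, Wg hψ.og ρ (fun s => γ (rs e s)) ⊤ (W i)
  inj : ∀ v, (∀ i (c : RR N) s x, W i (c • γ s (ρ x v)) = 0) → v = 0
  hec : ∀ k n P b, im k n (wH (tv (2 ^ k)) n P b) = ab P • im k n b
  ker : ∀ k n b φ, im k n b = 0 → TQ.Kf (2 ^ k) (LL N n) b φ → FV φ →
    ∀ (s : GQ) (g : G2 2) (d : ℕ) (hd : 0 < d * 1), Odd d →
      ∀ f, cv f = th X s φ (TQ.j (tq d 0 1 hd) * io q2 g) → cl 2 k (lg f) = 0
  J : ∃ q c : ℕ, ∀ (D : ℕ) (P : FreeAlgebra ℤ (PA N)),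
    (∀ m ≤ c * (D + 1), Wt.Kil 0 (rw ℚ_[2] m) P) →
      ∀ v ∈ Ar.Sd (ρ.comp (Kn 2 (q + 2)).subtype) 2 D, ab P • v = 0

/-- **existence of the module** -/
def MO : Prop := ∀ (N : ℕ) [NeZero N], 4 ∣ N → ∀ (X : Mdl) (e : Qb →+* CS 2)
  (ψ : ℚ_[2] → CS 2) (hψ : Psi 2 ψ) (lg : FF → ℤ → CS 2), Lq X 2 e ψ lg →
  ∃ (M : Type) (_ : AddCommGroup M) (_ : Module (RR N) M) (ρ : Representation (RR N) (G2 2) M)
    (γ : Representation (RR N) GQ M) (ι : Type) (W : ι → M →+ Y 2 (CS 2))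
    (im : ∀ k n, TQ.Hn (2 ^ k) (LL N n) →+ M), Mo X e hψ lg ρ γ W im

/-- `ℚ₂ / ℤ₂` -/
abbrev QZ : Type := ℚ_[2] ⧸ (PadicInt.subring 2).toAddSubgroup

/-- right translation -/
def rg (Γ B : Type) [Group Γ] [AddCommGroup B] : Representation ℤ Γ (Γ → B) where
  toFun k := LinearMap.funLeft ℤ B (· * k)
  map_one' := LinearMap.ext fun F => funext fun g => congrArg F (mul_one g)
  map_mul' k k' := LinearMap.ext fun F => funext fun g => congrArg F (mul_assoc g k k').symm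

/-- **smooth functions are polynomial** -/
def POLY : Prop := ∀ q : ℕ, ∃ c : ℕ, ∀ (D : ℕ) (F : G2 2 → QZ), (∀ a g, F (g * dd a a) = F g) →
  (∃ n, ∀ g, ∀ k ∈ Kn 2 n, F (g * k) = F g) →
  F ∈ Ar.Sd ((rg (G2 2) QZ).comp (Kn 2 (q + 2)).subtype) 2 D →
  ∃ A : ∀ m, Matrix (Fin (2 * m + 1)) (Fin (2 * m + 1)) ℚ_[2], ∀ k ∈ I1 2,
    F k = QuotientAddGroup.mk (∑ m ∈ Finset.range (c * (D + 1)), (syd m k⁻¹ * A m).trace)

end Vale.Agent.P004M.Mo
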