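import Vale.Agent.P004M.Mo.Lv

/-!
# P004M: an admissible module of cocycles that meets every class
-/

set_option autoImplicit false
set_option linter.all false

noncomputable section

namespace Vale.Agent.P004M.Mo

open Vale.Agent.P022 Vale.Agent.P022K Vale.Agent.P022K.Sh Vale.Agent.P022K.QT
open Vale.Agent.P022K.WB Vale.Agent.P022K.QT.Cl Sh.Tw

theorem ex_del (N : ℕ) [NeZero N] : ∃ δ : G → G0, Inv (UU N 1) δ ∧
    (∀ x, (TQ.j (δ x))⁻¹ * x ∈ UU N 1) ∧ δ 1 = 1 :=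
  ⟨fun x => kp N x * (kp N 1)⁻¹, fun x u hu => congrArg (Classical.epsilon · * _)
    (funext fun a => by rw [← mul_assoc, Subgroup.mul_mem_cancel_right _ hu]), fun x => by
    simpa [mul_assoc] using mul_mem (inv_mem (kp_mem (N := N) 1)) (kp_mem x), mul_inv_cancel _⟩

theorem b1_le {B : Type} [AddCommGroup B] {U : Subgroup G} (hU : U ∈ TQ.Lev) :
    TQ.B1 (tQ B) U ≤ TQ.Z1 (tQ B) U := fun z ⟨f, h, e⟩ =>
  ⟨fun γ x u hu => by simp only [e, Pi.sub_apply, Tw.lt, ← mul_assoc, h _ u hu],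
    fun γ δ => funext fun x => by simp [e, Tw.lt, mul_assoc],
    fun γ hγ => funext fun x => by simp [e, Tw.lt, okq.z_mul hU hγ h]⟩

theorem zero_of {N : ℕ} [NeZero N] {B : Type} [AddCommGroup B] {δ : G → G0}
    (d2 : ∀ x, (TQ.j (δ x))⁻¹ * x ∈ UU N 1) {S : Finset G0}
    (hS : TQ.Gam (UU N 1) 1 = Subgroup.closure S ⊔ TQ.Z0) {R : Finset G} {m n : ℕ}
    (hR : ∀ u ∈ UU N 1, ∃ y ∈ R, y⁻¹ * u ∈ LL N m) {w : G0 → G → B}
    (hn : w ∈ TQ.Z1 (tQ B) (LL N n)) (h0 : ∀ x, w (δ x) x = 0)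
    (h1 : ∀ k ∈ Kn 2 m, ∀ γ x, w γ (x * io q2 k) = w γ x) (h2 : ∀ γ ∈ S, ∀ y ∈ R, w γ y = 0) :
    w = 0 := by
  let V : Subgroup G :=
    { carrier := {u | ∀ γ x, w γ (x * u) = w γ x}
      one_mem' := fun γ x => by rw [mul_one]
      mul_mem' := fun h h' γ x => by rw [← mul_assoc, h', h]
      inv_mem' := fun h γ x => by rw [← h, inv_mul_cancel_right] }
  have h3 : LL N m ≤ V := cof q2 (S := V) (fun u hu γ x => hn.1 γ x u (tame_le q2 n hu))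
    (fun u hu γ x => hn.1 γ x u (QT.Z_le (LL_mem N n) hu))
    fun g hg => h1 g ((Top.Gk.Km_eq (p := 2) _).le hg)
  have j1 : ∀ γ, γ ∈ TQ.Gam (UU N 1) 1 ↔ TQ.j γ ∈ UU N 1 := fun γ => by
    rw [TQ.mem_Gam, inv_one, one_mul, mul_one]
  let H : Subgroup G0 :=
    { carrier := {γ | TQ.j γ ∈ UU N 1 ∧ ∀ u ∈ UU N 1, w γ u = 0}
      one_mem' := ⟨by simp, fun u _ => congrFun (hn.2.2 1 (one_mem _)) u⟩
      mul_mem' := fun {a b} h h' => ⟨map_mul TQ.j a b ▸ mul_mem h.1 h'.1, fun u hu => by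
        rw [coc_pt hn, h.2 u hu, h'.2 _ (mul_mem (inv_mem h.1) hu), map_zero, add_zero]⟩
      inv_mem' := fun {a} h => ⟨map_inv TQ.j a ▸ inv_mem h.1, fun u hu => by
        have := coc_pt hn a⁻¹ a u
        rw [inv_mul_cancel, hn.2.2 1 (one_mem _), h.2 _ (by simpa using mul_mem h.1 hu)] at this
        simpa using this.symm⟩ }
  have h4 : TQ.Gam (UU N 1) 1 ≤ H := hS.le.trans (sup_le ((Subgroup.closure_le _).2 fun γ h =>
    ⟨(j1 γ).1 (hS.ge (Subgroup.mem_sup_left (Subgroup.subset_closure h))), fun u hu => by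
      obtain ⟨y, hy, e⟩ := hR u hu
      rw [← mul_inv_cancel_left y u, h3 e, h2 γ h y hy]⟩)
    fun γ h => ⟨(j1 γ).1 (hS.ge (Subgroup.mem_sup_right h)), fun u _ => congrFun (hn.2.2 γ h) u⟩)
  funext γ x
  have := congrFun (ext_coc δ hn γ) x
  rw [ext, (h4 ((j1 _).2 (by
    simpa [mul_assoc] using mul_mem (d2 x) (inv_mem (d2 ((TQ.j γ)⁻¹ * x)))))).2 _ (d2 x)] at this
  simpa [Tw.lt, h0] using this.symm

variable {N : ℕ} [NeZero N] {B : Type} [AddCommGroup B] {δ : G → G0}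

theorem op2 {U : Subgroup G} (hU : U ∈ TQ.Lev) : ∃ m, ∀ g ∈ Kn 2 m, io q2 g ∈ U :=
  ((lc q2).op U hU).imp fun m h _ hg => h ((Top.Gk.Km_eq (p := 2) m).ge hg)

theorem zsm (q : ℕ) (z : ZQ N B) : ∃ t, ∀ g ∈ Iw.NK 2 q t, rZ N B g.1 z = z := by
  obtain ⟨n, hn⟩ := z.2.1
  obtain ⟨m, hm⟩ := op2 (LL_mem N n)
  refine ⟨m, fun g hg => Subtype.ext (funext₂ fun γ x => hn.1 γ x _ ?_)⟩
  obtain ⟨c, k, hk, e⟩ := Iw.mem_NK.1 hg
  show io q2 g.1 ∈ _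
  rw [e, map_mul]
  exact mul_mem (QT.Z_le (LL_mem N n) ((lc q2).cen _ (Subgroup.mem_center_iff.2 fun y =>
    (dd_comm c y).symm))) (hm k (Kn_anti (Nat.le_add_right _ _) hk))

theorem zfin (hB : {b : B | 2 • b = 0}.Finite) (d2 : ∀ x, (TQ.j (δ x))⁻¹ * x ∈ UU N 1) (m : ℕ) :
    {z : G0 → G → B | (∃ n, z ∈ TQ.Z1 (tQ B) (LL N n)) ∧ (∀ x, z (δ x) x = 0) ∧ 2 • z = 0 ∧
      ∀ k ∈ Kn 2 m, ∀ γ x, z γ (x * io q2 k) = z γ x}.Finite := by
  obtain ⟨S, hS⟩ := okq.fg _ (UU_mem (N := N) one_pos) 1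
  obtain ⟨R, -, hR⟩ := of_idx (okq.fi _ (LL_mem N m) _ (UU_mem (N := N) one_pos))
  refine Set.Finite.of_injOn (f := fun z (i : S × R) => z i.1 i.2)
    (t := {f | ∀ i, f i ∈ {b : B | 2 • b = 0}}) (fun z hz i => congrFun₂ hz.2.2.1 _ _) ?_
    (Set.Finite.pi' fun _ => hB)
  rintro z ⟨⟨n, h⟩, h1, -, h2⟩ z' ⟨⟨n', h'⟩, h1', -, h2'⟩ e
  exact sub_eq_zero.1 (zero_of d2 hS hR (sub_mem (Z1_anti (UU_anti q2 (n.le_add_right n')) h)
    (Z1_anti (UU_anti q2 (n'.le_add_left n)) h')) (fun x => sub_eq_zero.2 ((h1 x).trans (h1' x).symm))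
    (fun g hg γ x => congrArg₂ (· - ·) (h2 g hg γ x) (h2' g hg γ x))
    fun γ h y h' => sub_eq_zero.2 (congrFun e (⟨γ, h⟩, ⟨y, h'⟩)))

theorem zsur (d1 : Inv (UU N 1) δ) (d2 : ∀ x, (TQ.j (δ x))⁻¹ * x ∈ UU N 1) (d3 : δ 1 = 1)
    (z : ZQ N B) : ∃ a : ZQ N B, (∀ x, a.1 (δ x) x = 0) ∧
      ∃ n, z.1 - a.1 ∈ TQ.B1 (tQ B) (LL N n) := by
  obtain ⟨z, ⟨n, hn⟩, k, hk⟩ := z
  have hf : Inv (LL N n) fun x => -z (δ x) x := fun x u hu => by
    simp only [d1 x u (UU_le (pow_pos two_pos n) hu), hn.1 _ x u hu]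
  have hb : z - TQ.ext (tQ B) δ z ∈ TQ.B1 (tQ B) (LL N n) := ⟨_, hf, fun γ => funext fun x => by
    simp only [Pi.sub_apply, ext_coc δ hn, Pi.add_apply, Tw.lt, map_neg]
    abel⟩
  refine ⟨⟨TQ.ext (tQ B) δ z, ⟨n, ?_⟩, k, funext₂ fun γ x => congrFun₂ hk _ _⟩, fun x => ?_, n, hb⟩
  · simpa using sub_mem hn (b1_le (LL_mem N n) hb)
  · show z _ _ = 0
    rw [← one_mul (_ * x), d1 1 _ (d2 x), d3, mul_one, inv_mul_cancel, hn.2.2 1 (one_mem _)]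
    rfl

/-- **ZAD** -/
theorem zad (N : ℕ) [NeZero N] (B : Type) [AddCommGroup B] : ZAD N B := fun hB => by
  obtain ⟨δ, d1, d2, d3⟩ := ex_del N
  obtain ⟨q, hq⟩ := op2 (UU_mem (N := N) one_pos)
  let A : Submodule ℤ (ZQ N B) :=
    { carrier := {z | ∀ x, z.1 (δ x) x = 0}
      add_mem' := fun h h' x => (congrArg₂ _ (h x) (h' x)).trans (add_zero _)
      zero_mem' := fun _ => rfl
      smul_mem' := fun c z h x => (congrArg (c • ·) (h x)).trans (smul_zero _) }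
  refine ⟨q, A, _, Representation.subrepresentation ((rZ N B).comp (Kn 2 (q + 2)).subtype) A
    fun k z hz x => (congrArg (z.1 · _)
      (d1 x _ (hq _ (Kn_anti (Nat.le_add_right _ _) k.2))).symm).trans (hz _), A.subtype,
    ⟨fun z => (zsm q z.1).imp fun _ h g hg => Subtype.ext (h g hg),
      fun z => z.1.2.2.imp fun k e => Subtype.ext (Subtype.ext e),
      ((zfin hB d2 (q + 2)).preimage (f := fun z : A => z.1.1) fun _ _ _ _ e =>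
        Subtype.ext (Subtype.ext e)).subset fun z hz => ⟨z.1.2.1, z.2,
          congrArg (fun w : A => w.1.1) hz.1, fun k hk γ x =>
            congrArg (fun w : A => w.1.1 γ x) (hz.2 ⟨k, hk⟩)⟩⟩, fun _ _ => rfl, fun z => ?_⟩
  obtain ⟨a, h1, h2⟩ := zsur d1 d2 d3 z
  exact ⟨⟨a, h1⟩, h2⟩

end Vale.Agent.P004M.Mo
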